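import Mathlib

/-!
P011, real places (R2): simultaneous diagonalisation over `ℂ`.

* `diag_of_sep`: a complex matrix killed by a separable polynomial is diagonalisable.
* `comm_iff_diag`: if `B⁻¹ M B = diagonal v` with `v` injective, then `X` commutes with `M` iff
  `B⁻¹ X B` is diagonal.
* `mem_span_pow`: in that case `X` is a combination of `M ^ i`, `i < n`.
* `injective_of_charpoly`: `v` is injective if the characteristic polynomial is separable.
-/

namespace Vale.Agent.P011.H494.DiagC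

open Polynomial Module

variable {n : ℕ}

/-- eigenbasis of a semisimple endomorphism, indexed by `Fin n` -/
theorem exists_eigenbasis (f : Module.End ℂ (Fin n → ℂ)) {p : ℂ[X]} (hp : p.Separable)
    (h0 : aeval f p = 0) :
    ∃ (b : Basis (Fin n) ℂ (Fin n → ℂ)) (v : Fin n → ℂ), ∀ i, f (b i) = v i • b i := by
  classical
  have hss : f.IsSemisimple :=
    Module.End.isSemisimple_of_squarefree_aeval_eq_zero hp.squarefree h0
  have htop : ⨆ μ : ℂ, f.eigenspace μ = ⊤ := by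
    have h1 := Module.End.iSup_maxGenEigenspace_eq_top f
    have h2 : ∀ μ, f.maxGenEigenspace μ = f.eigenspace μ := fun μ =>
      hss.isFinitelySemisimple.maxGenEigenspace_eq_eigenspace μ
    simpa [h2] using h1
  have hint : DirectSum.IsInternal fun μ : ℂ => f.eigenspace μ :=
    DirectSum.isInternal_submodule_of_iSupIndep_of_iSup_eq_top
      (Module.End.eigenspaces_iSupIndep f) htop
  let b0 := hint.collectedBasis fun μ => Module.Free.chooseBasis ℂ (f.eigenspace μ)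
  have : Finite (Σ μ : ℂ, Module.Free.ChooseBasisIndex ℂ (f.eigenspace μ)) :=
    Module.Finite.finite_basis b0
  have := Fintype.ofFinite (Σ μ : ℂ, Module.Free.ChooseBasisIndex ℂ (f.eigenspace μ))
  have hcard : Fintype.card (Σ μ : ℂ, Module.Free.ChooseBasisIndex ℂ (f.eigenspace μ)) = n := by
    rw [← Module.finrank_eq_card_basis b0]; simp
  let e := Fintype.equivFinOfCardEq hcard
  refine ⟨b0.reindex e, fun i => (e.symm i).1, fun i => ?_⟩
  have hm := hint.collectedBasis_mem (fun μ => Module.Free.chooseBasis ℂ (f.eigenspace μ))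
    (e.symm i)
  rw [Basis.reindex_apply]
  exact Module.End.mem_eigenspace_iff.1 hm

theorem diag_of_sep (M : Matrix (Fin n) (Fin n) ℂ) {p : ℂ[X]} (hp : p.Separable)
    (h0 : aeval M p = 0) :
    ∃ B : (Matrix (Fin n) (Fin n) ℂ)ˣ, ∃ v : Fin n → ℂ,
      ((B⁻¹ : (Matrix (Fin n) (Fin n) ℂ)ˣ) : Matrix (Fin n) (Fin n) ℂ) * M * B
        = Matrix.diagonal v := by
  classical
  have h1 : aeval (Matrix.toLinAlgEquiv' M) p = 0 := by
    have := Polynomial.aeval_algHom_apply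
      (Matrix.toLinAlgEquiv' (R := ℂ) (n := Fin n)).toAlgHom M p
    rw [h0] at this
    simpa using this
  obtain ⟨b, v, hb⟩ := exists_eigenbasis (Matrix.toLinAlgEquiv' M) hp h1
  let A : Matrix (Fin n) (Fin n) ℂ := (Pi.basisFun ℂ (Fin n)).toMatrix b
  let A' : Matrix (Fin n) (Fin n) ℂ := b.toMatrix (Pi.basisFun ℂ (Fin n))
  have hAA' : A * A' = 1 := Basis.toMatrix_mul_toMatrix_flip _ _
  have hA'A : A' * A = 1 := Basis.toMatrix_mul_toMatrix_flip _ _
  refine ⟨⟨A, A', hAA', hA'A⟩, v, ?_⟩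
  change A' * M * A = Matrix.diagonal v
  have hMA : M * A = A * Matrix.diagonal v := by
    ext i j
    have := congrFun (hb j) i
    rw [Matrix.toLinAlgEquiv'_apply, Matrix.mulVec, dotProduct] at this
    rw [Matrix.mul_apply, Matrix.mul_diagonal]
    simpa [A, Basis.toMatrix_apply, mul_comm] using this
  rw [mul_assoc, hMA, ← mul_assoc, hA'A, one_mul]

section

variable {M : Matrix (Fin n) (Fin n) ℂ} {B : (Matrix (Fin n) (Fin n) ℂ)ˣ} {v : Fin n → ℂ}

theorem conj_mul (B : (Matrix (Fin n) (Fin n) ℂ)ˣ) (X Y : Matrix (Fin n) (Fin n) ℂ) :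
    ((B⁻¹ : (Matrix (Fin n) (Fin n) ℂ)ˣ) : Matrix (Fin n) (Fin n) ℂ) * (X * Y) * B
      = (((B⁻¹ : (Matrix (Fin n) (Fin n) ℂ)ˣ) : Matrix (Fin n) (Fin n) ℂ) * X * B)
        * (((B⁻¹ : (Matrix (Fin n) (Fin n) ℂ)ˣ) : Matrix (Fin n) (Fin n) ℂ) * Y * B) := by
  simp only [mul_assoc]
  rw [Units.mul_inv_cancel_left]

theorem conj_inj (B : (Matrix (Fin n) (Fin n) ℂ)ˣ) {X Y : Matrix (Fin n) (Fin n) ℂ}
    (h : ((B⁻¹ : (Matrix (Fin n) (Fin n) ℂ)ˣ) : Matrix (Fin n) (Fin n) ℂ) * X * B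
      = ((B⁻¹ : (Matrix (Fin n) (Fin n) ℂ)ˣ) : Matrix (Fin n) (Fin n) ℂ) * Y * B) : X = Y := by
  have h1 := congrArg (fun Z => (B : Matrix (Fin n) (Fin n) ℂ) * Z *
    ((B⁻¹ : (Matrix (Fin n) (Fin n) ℂ)ˣ) : Matrix (Fin n) (Fin n) ℂ)) h
  simpa [mul_assoc] using h1

theorem commute_diagonal_iff (hv : Function.Injective v) (Y : Matrix (Fin n) (Fin n) ℂ) :
    Commute Y (Matrix.diagonal v) ↔ ∃ w, Y = Matrix.diagonal w := by
  constructor
  · intro h
    refine ⟨fun i => Y i i, ?_⟩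
    ext i j
    rcases eq_or_ne i j with rfl | hij
    · simp
    · rw [Matrix.diagonal_apply_ne _ hij]
      have h1 := congrFun (congrFun h.eq i) j
      rw [Matrix.mul_diagonal, Matrix.diagonal_mul] at h1
      have h2 : (v j - v i) * Y i j = 0 := by linear_combination h1
      rcases mul_eq_zero.1 h2 with h3 | h3
      · exact absurd (hv (sub_eq_zero.1 h3)).symm hij
      · exact h3
  · rintro ⟨w, rfl⟩
    change Matrix.diagonal w * Matrix.diagonal v = Matrix.diagonal v * Matrix.diagonal w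
    rw [Matrix.diagonal_mul_diagonal, Matrix.diagonal_mul_diagonal]
    congr 1
    ext i
    ring

/-- `X` commutes with `M` iff `B⁻¹ X B` is diagonal. -/
theorem comm_iff_diag
    (hB : ((B⁻¹ : (Matrix (Fin n) (Fin n) ℂ)ˣ) : Matrix (Fin n) (Fin n) ℂ) * M * B
      = Matrix.diagonal v) (hv : Function.Injective v) (X : Matrix (Fin n) (Fin n) ℂ) :
    Commute X M ↔ ∃ w : Fin n → ℂ,
      ((B⁻¹ : (Matrix (Fin n) (Fin n) ℂ)ˣ) : Matrix (Fin n) (Fin n) ℂ) * X * B
        = Matrix.diagonal w := by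
  rw [← commute_diagonal_iff hv]
  constructor
  · intro h
    change _ * _ = _ * _
    rw [← hB, ← conj_mul, ← conj_mul, h.eq]
  · intro h
    refine conj_inj B ?_
    rw [conj_mul, conj_mul, hB]
    exact h.eq

/-- `M ^ i` is conjugate to `diagonal (v ^ i)`. -/
theorem conj_pow
    (hB : ((B⁻¹ : (Matrix (Fin n) (Fin n) ℂ)ˣ) : Matrix (Fin n) (Fin n) ℂ) * M * B
      = Matrix.diagonal v) (k : ℕ) :
    ((B⁻¹ : (Matrix (Fin n) (Fin n) ℂ)ˣ) : Matrix (Fin n) (Fin n) ℂ) * M ^ k * B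
      = Matrix.diagonal fun i => v i ^ k := by
  induction k with
  | zero => simp
  | succ k ih =>
    rw [pow_succ, conj_mul, ih, hB, Matrix.diagonal_mul_diagonal]
    congr 1

/-- matrices commuting with `M` are combinations of the powers `M ^ i`, `i < n` (Lagrange
interpolation in the eigenvalues) -/
theorem exists_coeff
    (hB : ((B⁻¹ : (Matrix (Fin n) (Fin n) ℂ)ˣ) : Matrix (Fin n) (Fin n) ℂ) * M * B
      = Matrix.diagonal v) (hv : Function.Injective v) {X : Matrix (Fin n) (Fin n) ℂ}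
    (hX : Commute X M) : ∃ c : Fin n → ℂ, X = ∑ i : Fin n, c i • M ^ (i : ℕ) := by
  classical
  obtain ⟨w, hw⟩ := (comm_iff_diag hB hv X).1 hX
  have hvs : Set.InjOn v (Finset.univ : Finset (Fin n)) := hv.injOn
  let q : ℂ[X] := Lagrange.interpolate Finset.univ v w
  have hq : ∀ i, q.eval (v i) = w i := fun i =>
    Lagrange.eval_interpolate_at_node w hvs (Finset.mem_univ i)
  have hdeg : q.degree < (n : ℕ) := by
    have := Lagrange.degree_interpolate_lt w hvs
    rwa [Finset.card_univ, Fintype.card_fin] at this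
  refine ⟨fun i => q.coeff i, conj_inj B ?_⟩
  rw [hw, Finset.mul_sum, Finset.sum_mul]
  have h1 : ∀ i : Fin n, ((B⁻¹ : (Matrix (Fin n) (Fin n) ℂ)ˣ) : Matrix (Fin n) (Fin n) ℂ)
      * (q.coeff i • M ^ (i : ℕ)) * B = Matrix.diagonal fun j => q.coeff i * v j ^ (i : ℕ) := by
    intro i
    rw [Matrix.mul_smul, Matrix.smul_mul, conj_pow hB]
    ext a b
    rcases eq_or_ne a b with rfl | hab
    · simp
    · simp [hab]
  rw [Finset.sum_congr rfl fun i _ => h1 i]
  ext a b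
  rw [Matrix.sum_apply]
  rcases eq_or_ne a b with rfl | hab
  · simp only [Matrix.diagonal_apply_eq]
    rw [← hq a, Polynomial.eval_eq_sum_range' (n := n) (by
      rcases eq_or_ne q 0 with h0 | h0
      · rw [h0]
        have : 0 < n := lt_of_le_of_lt (Nat.zero_le _) a.2
        simpa using this
      · exact (Polynomial.natDegree_lt_iff_degree_lt h0).2 hdeg)]
    exact Finset.sum_range fun i => q.coeff i * v a ^ i
  · simp [hab]

/-- matrices commuting with `M` are in the span of the powers `M ^ i`, `i < n` -/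
theorem mem_span_pow
    (hB : ((B⁻¹ : (Matrix (Fin n) (Fin n) ℂ)ˣ) : Matrix (Fin n) (Fin n) ℂ) * M * B
      = Matrix.diagonal v) (hv : Function.Injective v) {X : Matrix (Fin n) (Fin n) ℂ}
    (hX : Commute X M) :
    X ∈ Submodule.span ℂ (Set.range fun i : Fin n => M ^ (i : ℕ)) := by
  obtain ⟨c, hc⟩ := exists_coeff hB hv hX
  rw [hc]
  exact Submodule.sum_mem _ fun i _ =>
    Submodule.smul_mem _ _ (Submodule.subset_span ⟨i, rfl⟩)

theorem charpoly_conj
    (hB : ((B⁻¹ : (Matrix (Fin n) (Fin n) ℂ)ˣ) : Matrix (Fin n) (Fin n) ℂ) * M * B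
      = Matrix.diagonal v) : M.charpoly = ∏ i, (X - C (v i)) := by
  have h1 : (((B⁻¹ : (Matrix (Fin n) (Fin n) ℂ)ˣ) : Matrix (Fin n) (Fin n) ℂ) * M * B).charpoly
      = M.charpoly := by
    simp
  rw [← h1, hB, Matrix.charpoly_diagonal]

/-- if the characteristic polynomial is separable the diagonal entries are different -/
theorem injective_of_charpoly
    (hB : ((B⁻¹ : (Matrix (Fin n) (Fin n) ℂ)ˣ) : Matrix (Fin n) (Fin n) ℂ) * M * B
      = Matrix.diagonal v) (hs : M.charpoly.Separable) : Function.Injective v := by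
  rw [charpoly_conj hB] at hs
  exact Polynomial.Separable.injective_of_prod_X_sub_C hs

end

/-- everything in `ℂ[M]` is diagonal in the basis `B` -/
theorem diag_adjoin {M : Matrix (Fin n) (Fin n) ℂ} {B : (Matrix (Fin n) (Fin n) ℂ)ˣ}
    {v : Fin n → ℂ}
    (hB : ((B⁻¹ : (Matrix (Fin n) (Fin n) ℂ)ˣ) : Matrix (Fin n) (Fin n) ℂ) * M * B
      = Matrix.diagonal v) {X : Matrix (Fin n) (Fin n) ℂ} (hX : X ∈ Algebra.adjoin ℂ {M}) :
    ∃ w : Fin n → ℂ, ((B⁻¹ : (Matrix (Fin n) (Fin n) ℂ)ˣ) : Matrix (Fin n) (Fin n) ℂ) * X * B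
      = Matrix.diagonal w := by
  induction hX using Algebra.adjoin_induction with
  | mem x hx =>
    rw [Set.mem_singleton_iff] at hx
    subst hx
    exact ⟨v, hB⟩
  | algebraMap r =>
    refine ⟨fun _ => r, ?_⟩
    rw [Algebra.algebraMap_eq_smul_one, Matrix.mul_smul, Matrix.smul_mul, mul_one,
      Units.inv_mul, Matrix.smul_one_eq_diagonal]
  | add x y _ _ hx hy =>
    obtain ⟨a, ha⟩ := hx
    obtain ⟨b, hb⟩ := hy
    refine ⟨a + b, ?_⟩
    rw [mul_add, add_mul, ha, hb, Matrix.diagonal_add]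
    rfl
  | mul x y _ _ hx hy =>
    obtain ⟨a, ha⟩ := hx
    obtain ⟨b, hb⟩ := hy
    refine ⟨a * b, ?_⟩
    rw [conj_mul, ha, hb, Matrix.diagonal_mul_diagonal]
    rfl

/-- one conjugation moves the whole algebra `ℂ[M]` into the commutant of `M'`
(`M`, `M'` killed by separable polynomials) -/
theorem exists_conj_into (M M' : Matrix (Fin n) (Fin n) ℂ) {p p' : ℂ[X]} (hp : p.Separable)
    (h0 : aeval M p = 0) (hp' : p'.Separable) (h0' : aeval M' p' = 0) :
    ∃ G : (Matrix (Fin n) (Fin n) ℂ)ˣ, ∀ X ∈ Algebra.adjoin ℂ {M},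
      Commute ((G : Matrix (Fin n) (Fin n) ℂ) * X *
        ((G⁻¹ : (Matrix (Fin n) (Fin n) ℂ)ˣ) : Matrix (Fin n) (Fin n) ℂ)) M' := by
  obtain ⟨B, v, hB⟩ := diag_of_sep M hp h0
  obtain ⟨B', v', hB'⟩ := diag_of_sep M' hp' h0'
  refine ⟨B' * B⁻¹, fun X hX => ?_⟩
  obtain ⟨w, hw⟩ := diag_adjoin hB hX
  have h1 : ((B'⁻¹ : (Matrix (Fin n) (Fin n) ℂ)ˣ) : Matrix (Fin n) (Fin n) ℂ) *
      (((B' * B⁻¹ : (Matrix (Fin n) (Fin n) ℂ)ˣ) : Matrix (Fin n) (Fin n) ℂ) * X *
        (((B' * B⁻¹)⁻¹ : (Matrix (Fin n) (Fin n) ℂ)ˣ) : Matrix (Fin n) (Fin n) ℂ)) * B'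
      = Matrix.diagonal w := by
    rw [← hw]
    simp [mul_assoc]
  generalize ((B' * B⁻¹ : (Matrix (Fin n) (Fin n) ℂ)ˣ) : Matrix (Fin n) (Fin n) ℂ) * X *
    (((B' * B⁻¹)⁻¹ : (Matrix (Fin n) (Fin n) ℂ)ˣ) : Matrix (Fin n) (Fin n) ℂ) = Y at h1 ⊢
  refine conj_inj B' ?_
  rw [conj_mul, conj_mul B' M' Y, h1, hB', Matrix.diagonal_mul_diagonal,
    Matrix.diagonal_mul_diagonal]
  congr 1
  ext i
  exact mul_comm _ _

/-- (R2) in one statement: `M` with separable characteristic polynomial. -/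
theorem diag_main (M : Matrix (Fin n) (Fin n) ℂ) (hs : M.charpoly.Separable) :
    ∃ B : (Matrix (Fin n) (Fin n) ℂ)ˣ, ∃ v : Fin n → ℂ, Function.Injective v ∧
      ((B⁻¹ : (Matrix (Fin n) (Fin n) ℂ)ˣ) : Matrix (Fin n) (Fin n) ℂ) * M * B
        = Matrix.diagonal v ∧
      (∀ X : Matrix (Fin n) (Fin n) ℂ, Commute X M ↔ ∃ w : Fin n → ℂ,
        ((B⁻¹ : (Matrix (Fin n) (Fin n) ℂ)ˣ) : Matrix (Fin n) (Fin n) ℂ) * X * B
          = Matrix.diagonal w) ∧
      ∀ X : Matrix (Fin n) (Fin n) ℂ, Commute X M → X ∈ Submodule.span ℂ (Set.range fun i : Fin n => M ^ (i : ℕ)) := by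
  obtain ⟨B, v, hB⟩ := diag_of_sep M hs (Matrix.aeval_self_charpoly M)
  have hv := injective_of_charpoly hB hs
  exact ⟨B, v, hv, hB, comm_iff_diag hB hv, fun X hX => mem_span_pow hB hv hX⟩

end Vale.Agent.P011.H494.DiagC
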