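import Vale.Agent.P011.H494.DiagC

/-!
P011, real places: the set `DC B` of matrices diagonal in the basis `B`; closed under the ring
operations and inverses, and moved into the commutant of `M'` by `G = B' B⁻¹`.
-/

namespace Vale.Agent.P011.H494.DiagC

variable {n : ℕ}

/-- matrices which are diagonal in the basis `B` -/
def DC (B : (Matrix (Fin n) (Fin n) ℂ)ˣ) : Set (Matrix (Fin n) (Fin n) ℂ) :=
  {X | ∃ w : Fin n → ℂ, ((B⁻¹ : (Matrix (Fin n) (Fin n) ℂ)ˣ) : Matrix (Fin n) (Fin n) ℂ) * X * B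
    = Matrix.diagonal w}

variable {B : (Matrix (Fin n) (Fin n) ℂ)ˣ} {X Y : Matrix (Fin n) (Fin n) ℂ}

theorem DC.smul_one (B : (Matrix (Fin n) (Fin n) ℂ)ˣ) (c : ℂ) :
    c • (1 : Matrix (Fin n) (Fin n) ℂ) ∈ DC B :=
  ⟨fun _ => c, by
    rw [Matrix.mul_smul, Matrix.smul_mul, mul_one, Units.inv_mul, Matrix.smul_one_eq_diagonal]⟩

theorem DC.zero (B : (Matrix (Fin n) (Fin n) ℂ)ˣ) : (0 : Matrix (Fin n) (Fin n) ℂ) ∈ DC B := by
  have := DC.smul_one B 0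
  rwa [zero_smul] at this

theorem DC.one (B : (Matrix (Fin n) (Fin n) ℂ)ˣ) : (1 : Matrix (Fin n) (Fin n) ℂ) ∈ DC B := by
  have := DC.smul_one B 1
  rwa [one_smul] at this

theorem DC.add (hX : X ∈ DC B) (hY : Y ∈ DC B) : X + Y ∈ DC B := by
  obtain ⟨a, ha⟩ := hX
  obtain ⟨b, hb⟩ := hY
  refine ⟨a + b, ?_⟩
  rw [mul_add, add_mul, ha, hb, Matrix.diagonal_add]
  rfl

theorem DC.neg (hX : X ∈ DC B) : -X ∈ DC B := by
  obtain ⟨a, ha⟩ := hX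
  refine ⟨-a, ?_⟩
  rw [mul_neg, neg_mul, ha, Matrix.diagonal_neg]
  rfl

theorem DC.sub (hX : X ∈ DC B) (hY : Y ∈ DC B) : X - Y ∈ DC B := by
  rw [sub_eq_add_neg]
  exact DC.add hX (DC.neg hY)

theorem DC.mul (hX : X ∈ DC B) (hY : Y ∈ DC B) : X * Y ∈ DC B := by
  obtain ⟨a, ha⟩ := hX
  obtain ⟨b, hb⟩ := hY
  refine ⟨a * b, ?_⟩
  rw [conj_mul, ha, hb, Matrix.diagonal_mul_diagonal]
  rfl

/-- two sided inverses stay in `DC B` -/
theorem DC.inv (hX : X ∈ DC B) (hXY : X * Y = 1) : Y ∈ DC B := by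
  obtain ⟨a, ha⟩ := hX
  have h1 : Matrix.diagonal a *
      (((B⁻¹ : (Matrix (Fin n) (Fin n) ℂ)ˣ) : Matrix (Fin n) (Fin n) ℂ) * Y * B) = 1 := by
    rw [← ha, ← conj_mul, hXY, mul_one, Units.inv_mul]
  have h2 : ∀ i, a i ≠ 0 := by
    intro i h0
    have := congrFun (congrFun h1 i) i
    rw [Matrix.diagonal_mul, h0, zero_mul, Matrix.one_apply_eq] at this
    exact zero_ne_one this
  refine ⟨fun i => (a i)⁻¹, ?_⟩
  ext i j
  have := congrFun (congrFun h1 i) j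
  rw [Matrix.diagonal_mul] at this
  rcases eq_or_ne i j with rfl | hij
  · rw [Matrix.one_apply_eq] at this
    rw [Matrix.diagonal_apply_eq]
    exact eq_inv_of_mul_eq_one_right this
  · rw [Matrix.one_apply_ne hij] at this
    rw [Matrix.diagonal_apply_ne _ hij]
    exact (mul_eq_zero.1 this).resolve_left (h2 i)

theorem DC.unit_inv {U : (Matrix (Fin n) (Fin n) ℂ)ˣ} (hX : (U : Matrix (Fin n) (Fin n) ℂ) ∈ DC B) :
    ((U⁻¹ : (Matrix (Fin n) (Fin n) ℂ)ˣ) : Matrix (Fin n) (Fin n) ℂ) ∈ DC B :=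
  DC.inv hX (Units.mul_inv U)

theorem DC.ring_inv (hX : X ∈ DC B) : Ring.inverse X ∈ DC B := by
  by_cases h : IsUnit X
  · exact DC.inv hX (Ring.mul_inverse_cancel X h)
  · rw [Ring.inverse_non_unit X h]
    exact DC.zero B

theorem DC.mat_inv (hX : X ∈ DC B) : X⁻¹ ∈ DC B := by
  by_cases h : IsUnit X.det
  · exact DC.inv hX (Matrix.mul_nonsing_inv X h)
  · rw [Matrix.nonsing_inv_apply_not_isUnit X h]
    exact DC.zero B

/-- elements of `DC B` commute -/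
theorem DC.commute (hX : X ∈ DC B) (hY : Y ∈ DC B) : Commute X Y := by
  obtain ⟨a, ha⟩ := hX
  obtain ⟨b, hb⟩ := hY
  refine conj_inj B ?_
  rw [conj_mul, conj_mul, ha, hb, Matrix.diagonal_mul_diagonal, Matrix.diagonal_mul_diagonal]
  congr 1
  ext i
  exact mul_comm _ _

/-- if `B'` diagonalises `M'` then `G = B' B⁻¹` moves `DC B` into the commutant of `M'` -/
theorem DC.conj_commute {B' : (Matrix (Fin n) (Fin n) ℂ)ˣ} {M' : Matrix (Fin n) (Fin n) ℂ}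
    {v' : Fin n → ℂ}
    (hB' : ((B'⁻¹ : (Matrix (Fin n) (Fin n) ℂ)ˣ) : Matrix (Fin n) (Fin n) ℂ) * M' * B'
      = Matrix.diagonal v') (hX : X ∈ DC B) :
    Commute (((B' * B⁻¹ : (Matrix (Fin n) (Fin n) ℂ)ˣ) : Matrix (Fin n) (Fin n) ℂ) * X *
      (((B' * B⁻¹)⁻¹ : (Matrix (Fin n) (Fin n) ℂ)ˣ) : Matrix (Fin n) (Fin n) ℂ)) M' := by
  have hM : M' ∈ DC B' := ⟨v', hB'⟩
  have hG : ((B' * B⁻¹ : (Matrix (Fin n) (Fin n) ℂ)ˣ) : Matrix (Fin n) (Fin n) ℂ) * X *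
      (((B' * B⁻¹)⁻¹ : (Matrix (Fin n) (Fin n) ℂ)ˣ) : Matrix (Fin n) (Fin n) ℂ) ∈ DC B' := by
    obtain ⟨w, hw⟩ := hX
    refine ⟨w, ?_⟩
    rw [← hw]
    simp [mul_assoc]
  exact DC.commute hG hM

/-- the coefficients w.r.t. `1, M', .., M' ^ (n-1)` of `G X G⁻¹` exist -/
theorem DC.conj_coeff {B' : (Matrix (Fin n) (Fin n) ℂ)ˣ} {M' : Matrix (Fin n) (Fin n) ℂ}
    {v' : Fin n → ℂ}
    (hB' : ((B'⁻¹ : (Matrix (Fin n) (Fin n) ℂ)ˣ) : Matrix (Fin n) (Fin n) ℂ) * M' * B'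
      = Matrix.diagonal v') (hv' : Function.Injective v') (hX : X ∈ DC B) :
    ∃ c : Fin n → ℂ, ((B' * B⁻¹ : (Matrix (Fin n) (Fin n) ℂ)ˣ) : Matrix (Fin n) (Fin n) ℂ) * X *
      (((B' * B⁻¹)⁻¹ : (Matrix (Fin n) (Fin n) ℂ)ˣ) : Matrix (Fin n) (Fin n) ℂ)
      = ∑ i : Fin n, c i • M' ^ (i : ℕ) :=
  exists_coeff hB' hv' (DC.conj_commute hB' hX)

end Vale.Agent.P011.H494.DiagC
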